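import Vale.Agent.P225.Defs

/-!
P225: curves in connected open sets, lower bounds for the Riemannian distance, and completeness
from a `1`-Lipschitz exhaustion function.
-/

noncomputable section

namespace Vale.Agent.P225

open Set Filter Metric
open scoped ContDiff Topology

/-- The length of a tangent vector. -/
def tlen (g : MetricField) (x v : Pt) : ℝ := Real.sqrt (∑ i, ∑ j, g x i j * v i * v j)

theorem curveLength_eq (g : MetricField) (γ : ℝ → Pt) :
    curveLength g γ = ∫ t in (0 : ℝ)..1, tlen g (γ t) (deriv γ t) := rfl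

theorem tlen_nonneg (g : MetricField) (x v : Pt) : 0 ≤ tlen g x v := Real.sqrt_nonneg _

/-- A curve joining two points inside `U`. -/
def Joins (U : Set Pt) (p q : Pt) (γ : ℝ → Pt) : Prop :=
  ContDiff ℝ 1 γ ∧ γ 0 = p ∧ γ 1 = q ∧ ∀ t ∈ Icc (0 : ℝ) 1, γ t ∈ U

theorem Joins.concat {U : Set Pt} {p q r : Pt} {γ₁ γ₂ : ℝ → Pt} (h₁ : Joins U p q γ₁)
    (h₂ : Joins U q r γ₂) : ∃ γ, Joins U p r γ := by
  have hs : ContDiff ℝ 1 Real.smoothTransition := Real.smoothTransition.contDiff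
  refine ⟨fun t => γ₁ (Real.smoothTransition (2 * t)) + γ₂ (Real.smoothTransition (2 * t - 1)) - q,
    ?_, ?_, ?_, fun t _ => ?_⟩
  · exact ((h₁.1.comp (hs.comp (contDiff_const.mul contDiff_id))).add
      (h₂.1.comp (hs.comp ((contDiff_const.mul contDiff_id).sub contDiff_const)))).sub contDiff_const
  · simp [Real.smoothTransition.zero_of_nonpos, h₁.2.1, h₂.2.1]
  · norm_num [Real.smoothTransition.one_of_one_le, h₁.2.2.1, h₂.2.2.1]
  · have hmem : ∀ s, Real.smoothTransition s ∈ Icc (0 : ℝ) 1 := fun s =>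
      ⟨Real.smoothTransition.nonneg s, Real.smoothTransition.le_one s⟩
    simp only []
    rcases le_total (2 * t) 1 with h | h
    · rw [Real.smoothTransition.zero_of_nonpos (show 2 * t - 1 ≤ 0 by linarith), h₂.2.1,
        add_sub_cancel_right]
      exact h₁.2.2.2 _ (hmem _)
    · rw [Real.smoothTransition.one_of_one_le h, h₁.2.2.1, add_sub_cancel_left]
      exact h₂.2.2.2 _ (hmem _)

theorem joins_segment {U : Set Pt} {c p q : Pt} {δ : ℝ} (hB : ball c δ ⊆ U) (hp : p ∈ ball c δ)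
    (hq : q ∈ ball c δ) : Joins U p q fun t => p + t • (q - p) :=
  ⟨contDiff_const.add (contDiff_id.smul contDiff_const), by simp, by simp,
    fun _ ht => hB ((convex_ball c δ).add_smul_sub_mem hp hq ht)⟩

/-- Any two points of a connected open set are joined by a curve. -/
theorem exists_joins {U : Set Pt} (hU : IsOpen U) (hc : IsPreconnected U) {p q : Pt} (hp : p ∈ U)
    (hq : q ∈ U) : ∃ γ, Joins U p q γ := by
  set u := {x | x ∈ U ∧ ∃ γ, Joins U p x γ}
  set v := {x | x ∈ U ∧ ¬ ∃ γ, Joins U p x γ}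
  have hu : IsOpen u := Metric.isOpen_iff.2 fun x hx => by
    obtain ⟨δ, hδ, hB⟩ := Metric.isOpen_iff.1 hU x hx.1
    exact ⟨δ, hδ, fun y hy => ⟨hB hy,
      hx.2.choose_spec.concat (joins_segment hB (mem_ball_self hδ) hy)⟩⟩
  have hv : IsOpen v := Metric.isOpen_iff.2 fun x hx => by
    obtain ⟨δ, hδ, hB⟩ := Metric.isOpen_iff.1 hU x hx.1
    exact ⟨δ, hδ, fun y hy => ⟨hB hy, fun ⟨γ, hγ⟩ =>
      hx.2 (hγ.concat (joins_segment hB hy (mem_ball_self hδ)))⟩⟩
  have hsub : U ⊆ u := hc.subset_left_of_subset_union hu hv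
    (Set.disjoint_left.2 fun x hx hx' => hx'.2 hx.2)
    (fun x hx => by
      by_cases h : ∃ γ, Joins U p x γ
      · exact Or.inl ⟨hx, h⟩
      · exact Or.inr ⟨hx, h⟩)
    ⟨p, hp, hp, _, contDiff_const, rfl, rfl, fun _ _ => hp⟩
  exact (hsub hq).2

variable {U : Set Pt} {g : MetricField}

/-- The continuity of the length of the velocity along a curve. -/
theorem continuousOn_tlen (hg : ∀ i j, ContinuousOn (fun x => g x i j) U) {γ : ℝ → Pt} {p q : Pt}
    (hγ : Joins U p q γ) :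
    ContinuousOn (fun t => tlen g (γ t) (deriv γ t)) (Icc (0 : ℝ) 1) := by
  have hd : Continuous (deriv γ) := hγ.1.continuous_deriv le_rfl
  refine ContinuousOn.sqrt (continuousOn_finsetSum _ fun i _ => continuousOn_finsetSum _ fun j _ =>
    (((hg i j).comp hγ.1.continuous.continuousOn hγ.2.2.2).mul ?_).mul ?_)
  · exact ((continuous_apply i).comp hd).continuousOn
  · exact ((continuous_apply j).comp hd).continuousOn

/-- A lower bound for every curve is a lower bound for the distance. -/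
theorem le_rdist (hU : IsOpen U) (hc : IsPreconnected U) {p q : Pt} (hp : p ∈ U) (hq : q ∈ U)
    {L : ℝ} (h : ∀ γ, Joins U p q γ → L ≤ curveLength g γ) : L ≤ rdist U g p q := by
  obtain ⟨γ, hγ⟩ := exists_joins hU hc hp hq
  refine le_csInf ⟨_, γ, hγ.1, hγ.2.1, hγ.2.2.1, hγ.2.2.2, rfl⟩ ?_
  rintro _ ⟨γ', h1, h2, h3, h4, rfl⟩
  exact h γ' ⟨h1, h2, h3, h4⟩

theorem rdist_nonneg (p q : Pt) : 0 ≤ rdist U g p q :=
  Real.sInf_nonneg fun _ ⟨γ, _, _, _, _, hL⟩ => hL ▸ intervalIntegral.integral_nonneg zero_le_one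
    fun t _ => tlen_nonneg g (γ t) (deriv γ t)

/-- A function with `|dρ v| ≤ |v|_g` varies at most by the distance. -/
theorem abs_sub_le_rdist (hU : IsOpen U) (hc : IsPreconnected U)
    (hg : ∀ i j, ContinuousOn (fun x => g x i j) U) {ρ : Pt → ℝ} (hρ : ContDiffOn ℝ 1 ρ U)
    (hd : ∀ x ∈ U, ∀ v, |fderiv ℝ ρ x v| ≤ tlen g x v) {p q : Pt} (hp : p ∈ U) (hq : q ∈ U) :
    |ρ q - ρ p| ≤ rdist U g p q := by
  refine le_rdist hU hc hp hq fun γ hγ => ?_
  rw [curveLength_eq]
  have hI : uIcc (0 : ℝ) 1 = Icc 0 1 := uIcc_of_le zero_le_one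
  have hd1 : ∀ t ∈ Icc (0 : ℝ) 1,
      HasDerivAt (ρ ∘ γ) (fderiv ℝ ρ (γ t) (deriv γ t)) t := fun t ht =>
    ((hρ.differentiableOn one_ne_zero).differentiableAt
      (hU.mem_nhds (hγ.2.2.2 t ht))).hasFDerivAt.comp_hasDerivAt t
        ((hγ.1.differentiable one_ne_zero).differentiableAt.hasDerivAt)
  have hcont : ContinuousOn (fun t => fderiv ℝ ρ (γ t) (deriv γ t)) (uIcc (0 : ℝ) 1) := by
    rw [hI]
    exact ((hρ.continuousOn_fderiv_of_isOpen hU le_rfl).comp hγ.1.continuous.continuousOn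
      hγ.2.2.2).clm_apply (hγ.1.continuous_deriv le_rfl).continuousOn
  have e := intervalIntegral.integral_eq_sub_of_hasDerivAt (fun t ht => hd1 t (hI ▸ ht))
    hcont.intervalIntegrable
  simp only [Function.comp_apply, hγ.2.1, hγ.2.2.1] at e
  rw [← e]
  refine (intervalIntegral.abs_integral_le_integral_abs zero_le_one).trans
    (intervalIntegral.integral_mono_on zero_le_one hcont.abs.intervalIntegrable
      (ContinuousOn.intervalIntegrable (hI ▸ continuousOn_tlen hg hγ))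
      fun t ht => hd _ (hγ.2.2.2 t ht) _)

/-- Uniform positivity near a point. -/
theorem exists_tlen_lower (hU : IsOpen U) (hg : ∀ i j, ContinuousOn (fun x => g x i j) U)
    (hpos : ∀ x ∈ U, (g x).PosDef) {p : Pt} (hp : p ∈ U) :
    ∃ δ > (0 : ℝ), closedBall p δ ⊆ U ∧ ∃ c > (0 : ℝ), ∀ x ∈ closedBall p δ, ∀ v,
      c * ‖v‖ ≤ tlen g x v := by
  obtain ⟨δ, hδ, hB⟩ := nhds_basis_closedBall.mem_iff.1 (hU.mem_nhds hp)
  refine ⟨δ, hδ, hB, ?_⟩
  have hne : (closedBall p δ ×ˢ sphere (0 : Pt) 1).Nonempty :=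
    ⟨(p, Pi.single 0 1), mem_closedBall_self hδ.le, by simp [Pi.norm_single]⟩
  have hcont : ContinuousOn (fun z : Pt × Pt => tlen g z.1 z.2)
      (closedBall p δ ×ˢ sphere (0 : Pt) 1) := by
    refine ContinuousOn.sqrt (continuousOn_finsetSum _ fun i _ => continuousOn_finsetSum _
      fun j _ => (((hg i j).comp continuousOn_fst fun z hz => hB hz.1).mul ?_).mul ?_)
    · exact ((continuous_apply i).comp continuous_snd).continuousOn
    · exact ((continuous_apply j).comp continuous_snd).continuousOn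
  obtain ⟨z, hz, hmin⟩ :=
    ((isCompact_closedBall p δ).prod (isCompact_sphere (0 : Pt) 1)).exists_isMinOn hne hcont
  have hz0 : z.2 ≠ 0 := by
    intro h
    simpa [h] using hz.2
  have hzpos : 0 < tlen g z.1 z.2 := by
    refine Real.sqrt_pos.2 ?_
    have := (hpos _ (hB hz.1)).dotProduct_mulVec_pos hz0
    simpa [dotProduct, Matrix.mulVec, Finset.mul_sum, mul_comm, mul_left_comm, mul_assoc] using this
  refine ⟨tlen g z.1 z.2, hzpos, fun x hx v => ?_⟩
  rcases eq_or_ne v 0 with rfl | hv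
  · simp [tlen]
  have hn : 0 < ‖v‖ := norm_pos_iff.2 hv
  have hmem : (x, ‖v‖⁻¹ • v) ∈ closedBall p δ ×ˢ sphere (0 : Pt) 1 :=
    ⟨hx, by simp [norm_smul, hn.ne']⟩
  have h1 := isMinOn_iff.1 hmin _ hmem
  have e : tlen g x (‖v‖⁻¹ • v) = ‖v‖⁻¹ * tlen g x v := by
    unfold tlen
    rw [← Real.sqrt_sq (inv_nonneg.2 hn.le), ← Real.sqrt_mul (sq_nonneg _), Finset.mul_sum]
    congr 1
    refine Finset.sum_congr rfl fun i _ => ?_
    rw [Finset.mul_sum]
    refine Finset.sum_congr rfl fun j _ => ?_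
    simp only [Real.sqrt_sq (inv_nonneg.2 hn.le), Pi.smul_apply, smul_eq_mul]
    ring
  simp only [e] at h1
  rwa [← le_div_iff₀ hn, div_eq_inv_mul]

/-- Points at small distance are close in the chart. -/
theorem min_le_rdist (hU : IsOpen U) (hc : IsPreconnected U)
    (hg : ∀ i j, ContinuousOn (fun x => g x i j) U) {p : Pt} {δ c : ℝ} (hc0 : 0 ≤ c)
    (hB : closedBall p δ ⊆ U) (hlow : ∀ x ∈ closedBall p δ, ∀ v, c * ‖v‖ ≤ tlen g x v)
    {a b : Pt} (ha : ‖a - p‖ ≤ δ / 2) (hb : b ∈ U) :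
    c * min ‖b - a‖ (δ / 2) ≤ rdist U g a b := by
  have haU : a ∈ U := hB (by rw [mem_closedBall, dist_eq_norm]; linarith [norm_nonneg (a - p)])
  refine le_rdist hU hc haU hb fun γ hγ => ?_
  rw [curveLength_eq]
  have hI : uIcc (0 : ℝ) 1 = Icc 0 1 := uIcc_of_le zero_le_one
  -- up to any time spent in the ball
  have key : ∀ τ ∈ Icc (0 : ℝ) 1, (∀ t ∈ Icc (0 : ℝ) τ, γ t ∈ closedBall p δ) →
      c * ‖γ τ - a‖ ≤ ∫ t in (0 : ℝ)..1, tlen g (γ t) (deriv γ t) := by
    intro τ hτ hin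
    have hd : Continuous (deriv γ) := hγ.1.continuous_deriv le_rfl
    have hs := continuousOn_tlen hg hγ
    have e : ∫ t in (0 : ℝ)..τ, deriv γ t = γ τ - γ 0 :=
      intervalIntegral.integral_eq_sub_of_hasDerivAt
        (fun t _ => (hγ.1.differentiable one_ne_zero).differentiableAt.hasDerivAt)
        (hd.intervalIntegrable _ _)
    rw [hγ.2.1] at e
    have hs1 : IntervalIntegrable (fun t => tlen g (γ t) (deriv γ t)) MeasureTheory.volume 0 τ :=
      ContinuousOn.intervalIntegrable <| by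
        rw [uIcc_of_le hτ.1]; exact hs.mono (Icc_subset_Icc le_rfl hτ.2)
    have hs2 : IntervalIntegrable (fun t => tlen g (γ t) (deriv γ t)) MeasureTheory.volume τ 1 :=
      ContinuousOn.intervalIntegrable <| by
        rw [uIcc_of_le hτ.2]; exact hs.mono (Icc_subset_Icc hτ.1 le_rfl)
    calc c * ‖γ τ - a‖ ≤ c * ∫ t in (0 : ℝ)..τ, ‖deriv γ t‖ := by
          rw [← e]
          exact mul_le_mul_of_nonneg_left (intervalIntegral.norm_integral_le_integral_norm hτ.1) hc0
      _ = ∫ t in (0 : ℝ)..τ, c * ‖deriv γ t‖ := (intervalIntegral.integral_const_mul _ _).symm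
      _ ≤ ∫ t in (0 : ℝ)..τ, tlen g (γ t) (deriv γ t) :=
          intervalIntegral.integral_mono_on hτ.1 ((hd.norm.const_mul c).intervalIntegrable _ _) hs1
            fun t ht => hlow _ (hin t ht) _
      _ ≤ _ := by
          rw [← intervalIntegral.integral_add_adjacent_intervals hs1 hs2]
          exact le_add_of_nonneg_right
            (intervalIntegral.integral_nonneg hτ.2 fun t _ => tlen_nonneg _ _ _)
  have hcγ : Continuous fun t => ‖γ t - p‖ := (hγ.1.continuous.sub continuous_const).norm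
  set S := Icc (0 : ℝ) 1 ∩ {t | δ ≤ ‖γ t - p‖} with hS
  rcases S.eq_empty_or_nonempty with hSe | hSne
  · have := key 1 (right_mem_Icc.2 zero_le_one) fun t ht => by
      rw [mem_closedBall, dist_eq_norm]
      by_contra h
      have : t ∈ S := ⟨ht, (not_le.1 h).le⟩
      simp [hSe] at this
    rw [hγ.2.2.1] at this
    exact (mul_le_mul_of_nonneg_left (min_le_left _ _) hc0).trans this
  · have hScl : IsCompact S := isCompact_Icc.inter_right (isClosed_le continuous_const hcγ)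
    set τ := sInf S
    have hτ : τ ∈ S := hScl.sInf_mem hSne
    have hlt : ∀ t ∈ Icc (0 : ℝ) τ, t < τ → ‖γ t - p‖ < δ := fun t ht htτ => by
      by_contra h
      exact (not_le.2 htτ) (csInf_le hScl.bddBelow ⟨⟨ht.1, ht.2.trans hτ.1.2⟩, not_lt.1 h⟩)
    have hτ2 : δ ≤ ‖γ τ - p‖ := hτ.2
    have hin : ∀ t ∈ Icc (0 : ℝ) τ, γ t ∈ closedBall p δ := by
      intro t ht
      rw [mem_closedBall, dist_eq_norm]
      rcases ht.2.lt_or_eq with htτ | rfl
      · exact (hlt t ht htτ).le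
      rcases hτ.1.1.eq_or_lt with h0 | h0
      · rw [← h0, hγ.2.1]; linarith [norm_nonneg (a - p)]
      · refine le_of_tendsto (hcγ.continuousWithinAt (s := Iio τ)).tendsto ?_
        filter_upwards [Ioo_mem_nhdsLT h0] with s hs
        exact (hlt s ⟨hs.1.le, hs.2.le⟩ hs.2).le
    refine le_trans (mul_le_mul_of_nonneg_left ((min_le_right _ _).trans ?_) hc0) (key τ hτ.1 hin)
    have := norm_sub_le_norm_sub_add_norm_sub (γ τ) a p
    linarith

/-- A `1`-Lipschitz function with compact sublevel sets makes `(U, g)` complete. -/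
theorem isCompleteRiem_of_exhaustion (hU : IsOpen U) (hc : IsPreconnected U)
    (hg : ∀ i j, ContinuousOn (fun x => g x i j) U) (hpos : ∀ x ∈ U, (g x).PosDef) {ρ : Pt → ℝ}
    (hρ : ContDiffOn ℝ 1 ρ U) (hd : ∀ x ∈ U, ∀ v, |fderiv ℝ ρ x v| ≤ tlen g x v)
    (hK : ∀ R : ℝ, ∃ K, IsCompact K ∧ K ⊆ U ∧ ∀ x ∈ U, ρ x ≤ R → x ∈ K) :
    IsCompleteRiem U g := by
  intro s hs hcau
  obtain ⟨N₀, hN₀⟩ := hcau 1 one_pos
  obtain ⟨K, hKc, hKU, hKmem⟩ := hK (ρ (s N₀) + 1)
  have hin : ∀ n ≥ N₀, s n ∈ K := fun n hn => hKmem _ (hs n) (by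
    have h1 := abs_sub_le_rdist hU hc hg hρ hd (hs N₀) (hs n)
    have h2 := hN₀ N₀ le_rfl n hn
    linarith [le_abs_self (ρ (s n) - ρ (s N₀))])
  obtain ⟨p, hpK, φ, hφ, hlim⟩ := hKc.tendsto_subseq (x := fun n => s (n + N₀))
    fun n => hin _ (Nat.le_add_left _ _)
  have hp := hKU hpK
  refine ⟨p, hp, Metric.tendsto_atTop.2 fun ε hε => ?_⟩
  obtain ⟨δ, hδ, hB, c, hc0, hlow⟩ := exists_tlen_lower hU hg hpos hp
  obtain ⟨N, hN⟩ := hcau (c * min (ε / 2) (δ / 2)) (mul_pos hc0 (lt_min (half_pos hε) (half_pos hδ)))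
  obtain ⟨M, hM⟩ := Metric.tendsto_atTop.1 hlim (min (ε / 2) (δ / 2))
    (lt_min (half_pos hε) (half_pos hδ))
  refine ⟨N, fun n hn => ?_⟩
  have h1 := hM (max M N) (le_max_left _ _)
  simp only [Function.comp_apply, dist_eq_norm] at h1
  have hm : N ≤ φ (max M N) + N₀ :=
    le_trans (le_trans (le_max_right M N) (hφ.id_le _)) (Nat.le_add_right _ _)
  have h2 := (min_le_rdist hU hc hg hc0.le hB hlow
    (h1.le.trans (min_le_right _ _)) (hs n)).trans_lt (hN _ hm n hn)
  have h3 := lt_of_mul_lt_mul_left h2 hc0.le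
  have h4 : ‖s n - s (φ (max M N) + N₀)‖ < ε / 2 := by
    rcases min_lt_iff.1 h3 with h | h
    · exact h.trans_le (min_le_left _ _)
    · exact absurd h (not_lt.2 (min_le_right _ _))
  rw [dist_eq_norm]
  have h5 : ‖s (φ (max M N) + N₀) - p‖ < ε / 2 := h1.trans_le (min_le_left _ _)
  linarith [norm_sub_le_norm_sub_add_norm_sub (s n) (s (φ (max M N) + N₀)) p]

end Vale.Agent.P225
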